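import Vale.Agent.P067.FinalDefs
import Vale.Agent.P067.Bdl.B1

set_option autoImplicit false

open Filter

namespace Vale.Agent.Results.P067.CoboundaryExpanders

open Vale.Agent.P067

/-- For every `d ≥ 1` there are `D`, `ε > 0` and finite connected pure `d`-dimensional simplicial
complexes `X m`, with numbers of vertices tending to infinity, each of degree at most `D` and each
an `ε`-coboundary expander. -/
theorem result (d : ℕ) (hd : 1 ≤ d) :
    ∃ (D : ℕ) (ε : ℝ), 0 < ε ∧ ∃ (V : ℕ → Type) (_ : ∀ m, Fintype (V m))
      (X : ∀ m, AbstractSimplicialComplex (V m)),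
      Tendsto (fun m => Fintype.card (V m)) atTop atTop ∧
      ∀ m, IsPure (X m) d ∧ (skel (X m)).Connected ∧ degree (X m) d ≤ D ∧
        IsCoboundaryExpander (X m) d ε :=
  main d hd

end Vale.Agent.Results.P067.CoboundaryExpanders
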